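import Vale.Agent.P002B14.An
import Mathlib.Topology.FiberBundle.Trivialization

/-!
# P002: one fibre for a locally trivial map; preimages of finite sets are thin (helper45)
-/

set_option linter.all false

namespace Vale.Agent.P002G45

open Set Filter Topology Metric Bundle

theorem one_fibre {X B : Type} [TopologicalSpace X] [TopologicalSpace B] [PreconnectedSpace B]
    {p : X → B}
    (h : ∀ b, ∃ (F : Type) (_ : TopologicalSpace F) (e : Trivialization F p), b ∈ e.baseSet)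
    (b₀ b : B) : ∃ e : Trivialization (p ⁻¹' {b₀}) p, b ∈ e.baseSet := by
  have key : ∀ a : B, ∀ᶠ c in 𝓝 a, Nonempty (p ⁻¹' {a} ≃ₜ p ⁻¹' {c}) := fun a => by
    obtain ⟨F, _, e, he⟩ := h a
    filter_upwards [e.open_baseSet.mem_nhds he] with c hc
    exact ⟨(e.preimageSingletonHomeomorph he).trans (e.preimageSingletonHomeomorph hc).symm⟩
  have hc : IsClopen {c | Nonempty (p ⁻¹' {c} ≃ₜ p ⁻¹' {b₀})} := by
    refine ⟨isOpen_compl_iff.1 (isOpen_iff_mem_nhds.2 fun a ha => ?_),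
      isOpen_iff_mem_nhds.2 fun a ha => ?_⟩
    · filter_upwards [key a] with c ⟨e⟩ ⟨e'⟩ using ha ⟨e.trans e'⟩
    · obtain ⟨e'⟩ := ha
      filter_upwards [key a] with c ⟨e⟩ using ⟨e.symm.trans e'⟩
  obtain ⟨e'⟩ : b ∈ {c | Nonempty (p ⁻¹' {c} ≃ₜ p ⁻¹' {b₀})} := by
    rw [hc.eq_univ ⟨b₀, ⟨Homeomorph.refl _⟩⟩]; trivial
  obtain ⟨F, _, e, he⟩ := h b
  exact ⟨e.transFiberHomeomorph ((e.preimageSingletonHomeomorph he).symm.trans e'), he⟩

variable {V : Type} [NormedAddCommGroup V] [NormedSpace ℂ V]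

theorem ball_of {g : V → ℂ} {c : V} (hg : AnalyticAt ℂ g c) {P : V → Prop} (hP : ∀ᶠ z in 𝓝 c, P z) :
    ∃ r > 0, AnalyticOnNhd ℂ g (ball c r) ∧ ∀ z ∈ ball c r, P z := by
  obtain ⟨r, hr, h⟩ := Metric.eventually_nhds_iff_ball.1 (hg.eventually_analyticAt.and hP)
  exact ⟨r, hr, fun z hz => (h z hz).1, fun z hz => (h z hz).2⟩

theorem zero_of {g : V → ℂ} {c z : V} {r : ℝ} (hg : AnalyticOnNhd ℂ g (ball c r))
    (hz : z ∈ ball c r) (h0 : g =ᶠ[𝓝 z] 0) : g =ᶠ[𝓝 c] 0 := by
  letI : NormedSpace ℝ V := NormedSpace.complexToReal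
  have h := hg.eqOn_zero_of_preconnected_of_eventuallyEq_zero
    (convex_ball c r).isPreconnected hz h0
  filter_upwards [ball_mem_nhds c (pos_of_mem_ball hz)] with y hy using h hy

theorem mul_ne {g₁ g₂ : V → ℂ} {c : V} (h₂ : AnalyticAt ℂ g₂ c) (h₁ : AnalyticAt ℂ g₁ c)
    (n₁ : ¬g₁ =ᶠ[𝓝 c] 0) (n₂ : ¬g₂ =ᶠ[𝓝 c] 0) : ¬(fun z => g₁ z * g₂ z) =ᶠ[𝓝 c] 0 := by
  intro h
  obtain ⟨r, hr, a₂, hb⟩ := ball_of h₂ (h₁.eventually_analyticAt.and h)
  refine n₁ ?_
  filter_upwards [ball_mem_nhds c hr] with z hz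
  by_contra hne
  refine n₂ (zero_of a₂ hz ?_)
  filter_upwards [(hb z hz).1.continuousAt.eventually_ne hne, isOpen_ball.mem_nhds hz] with y a b
  exact (mul_eq_zero.1 (hb y b).2).resolve_left a

theorem prod_ne {ι : Type} (s : Finset ι) {g : ι → V → ℂ} {c : V} (h : ∀ i, AnalyticAt ℂ (g i) c)
    (n : ∀ i, ¬g i =ᶠ[𝓝 c] 0) :
    AnalyticAt ℂ (fun z => ∏ i ∈ s, g i z) c ∧ ¬(fun z => ∏ i ∈ s, g i z) =ᶠ[𝓝 c] 0 := by
  classical
  induction s using Finset.induction_on with
  | empty => exact ⟨by simpa using analyticAt_const, fun h => by simpa using h.self_of_nhds⟩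
  | insert a s ha ih =>
    simp only [Finset.prod_insert ha]
    exact ⟨(h a).mul ih.1, mul_ne ih.1 (h a) (n a) ih.2⟩

variable {X : Type} [TopologicalSpace X] [ChartedSpace V X]

/-- A nonconstant holomorphic map on a connected manifold is nowhere locally constant. -/
theorem not_const [PreconnectedSpace X] {S : Type} [TopologicalSpace S] [ChartedSpace ℂ S]
    {f : X → S} (hf : Continuous f)
    (ha : ∀ x, AnalyticAt ℂ (fun z => chartAt ℂ (f x) (f ((chartAt V x).symm z))) (chartAt V x x))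
    (hn : ∃ a b, f a ≠ f b) (x : X) :
    ¬(fun z => chartAt ℂ (f x) (f ((chartAt V x).symm z)) - chartAt ℂ (f x) (f x))
      =ᶠ[𝓝 (chartAt V x x)] 0 := by
  have src : ∀ x, ∀ᶠ y in 𝓝 x, y ∈ (chartAt V x).source ∧ f y ∈ (chartAt ℂ (f x)).source :=
    fun x => Filter.Eventually.and (chart_source_mem_nhds V x)
      (hf.continuousAt (chart_source_mem_nhds ℂ (f x)))
  have back : ∀ x w, (fun z => chartAt ℂ (f x) (f ((chartAt V x).symm z)) - w)
      =ᶠ[𝓝 (chartAt V x x)] 0 → ∀ᶠ y in 𝓝 x, f y = f x := fun x w h => by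
    have h1 := ((chartAt V x).continuousAt (mem_chart_source V x)).eventually h
    have h2 := h1.self_of_nhds
    simp only [(chartAt V x).left_inv (mem_chart_source V x), Pi.zero_apply] at h2
    filter_upwards [h1, src x] with y a b
    simp only [(chartAt V x).left_inv b.1, Pi.zero_apply] at a
    exact (chartAt ℂ (f x)).injOn b.2 (mem_chart_source ℂ _)
      ((sub_eq_zero.1 a).trans (sub_eq_zero.1 h2).symm)
  intro h
  have hc : IsClopen {y | ∀ᶠ z in 𝓝 y, f z = f y} := by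
    refine ⟨isClosed_of_closure_subset fun y hy => ?_, isOpen_iff_mem_nhds.2 fun y hy => ?_⟩
    · obtain ⟨r, hr, a, -⟩ := ball_of (ha y) (Eventually.of_forall fun _ => trivial)
      have h1 : ∀ᶠ u in 𝓝 y, u ∈ (chartAt V y).source ∧ chartAt V y u ∈ ball (chartAt V y y) r :=
        ((src y).mono fun _ h => h.1).and
          (((chartAt V y).continuousAt (mem_chart_source V y)) (ball_mem_nhds _ hr))
      obtain ⟨u, hu, hu'⟩ := mem_closure_iff_nhds.1 hy _ h1
      refine back y (chartAt ℂ (f y) (f u)) (zero_of (a.sub analyticOnNhd_const) hu.2 ?_)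
      have h2 := (chartAt V y).continuousAt_symm ((chartAt V y).map_source hu.1)
      rw [ContinuousAt, (chartAt V y).left_inv hu.1] at h2
      filter_upwards [h2.eventually hu'] with z hz
      simp [hz]
    · filter_upwards [eventually_eventually_nhds.2 hy, hy] with z a b
      exact a.mono fun u hu => hu.trans b.symm
  have hl : IsLocallyConstant f := (IsLocallyConstant.iff_eventually_eq f).2 fun y => by
    have : y ∈ {y | ∀ᶠ z in 𝓝 y, f z = f y} := by
      rw [hc.eq_univ ⟨x, back x _ h⟩]; trivial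
    exact this
  obtain ⟨a, b, hab⟩ := hn
  exact hab (hl.apply_eq_of_preconnectedSpace a b)

/-- The union of the preimages of finite sets under nonconstant holomorphic maps is thin. -/
theorem thin_pre [CompleteSpace V] [PreconnectedSpace X] {k : ℕ} {S : Fin k → Type}
    [∀ i, TopologicalSpace (S i)] [∀ i, T1Space (S i)] [∀ i, ChartedSpace ℂ (S i)]
    {D : ∀ i, Set (S i)} (hD : ∀ i, (D i).Finite) {f : ∀ i, X → S i} (hf : ∀ i, Continuous (f i))
    (ha : ∀ i x, AnalyticAt ℂ (fun z => chartAt ℂ (f i x) (f i ((chartAt V x).symm z)))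
      (chartAt V x x)) (hn : ∀ i, ∃ a b, f i a ≠ f i b) {E : Set X} (hE : IsClosed E) :
    P002B14.Thin E {x | ∃ i, f i x ∈ D i} := by
  refine P002B14.thin_an (V := V) hE ?_ fun x _ => ?_
  · rw [show {x | ∃ i, f i x ∈ D i} = ⋃ i, f i ⁻¹' D i from by ext; simp]
    exact isClosed_iUnion_of_finite fun i => (hD i).isClosed.preimage (hf i)
  obtain ⟨h1, h2⟩ := prod_ne Finset.univ (g := fun i z => chartAt ℂ (f i x)
    (f i ((chartAt V x).symm z)) - chartAt ℂ (f i x) (f i x))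
    (fun i => (ha i x).sub analyticAt_const) fun i => not_const (hf i) (ha i) (hn i) x
  refine ⟨_, h1, h2, ?_⟩
  have h3 : ∀ᶠ y in 𝓝 x, ∀ i, f i y ∉ D i \ {f i x} := eventually_all.2 fun i =>
    ((hf i).continuousAt (x := x)).eventually (p := fun s => s ∉ D i \ {f i x})
      (((hD i).subset (s := D i) (t := D i \ {f i x}) fun _ h => h.1).isClosed.isOpen_compl.mem_nhds
        fun h => h.2 rfl)
  filter_upwards [h3, chart_source_mem_nhds V x] with y a b ⟨i, hi⟩
  refine Finset.prod_eq_zero (Finset.mem_univ i) ?_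
  rw [(chartAt V x).left_inv b, sub_eq_zero]
  by_contra hne
  exact a i ⟨hi, fun h => hne (by rw [h])⟩

end Vale.Agent.P002G45
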